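/-
P235, line HUB: row [LOSSY] from the random function lemma (`NuStmt`).
-/
import Vale.Agent.P235.Hub.H15.NuDefs

namespace Vale.Agent.P235.Hub.H309

open Vale.Agent.P235 Vale.Agent.P235.R2.H598

theorem IsMet.nonneg' {V : Type} {d : V → V → ℝ} (hd : IsMet d) (x y : V) : 0 ≤ d x y := by
  by_cases h : x = y
  · rw [h, hd.self]
  · exact (hd.pos x y h).le

/-- `max |Δf| |Δg|` is an `L₁` semimetric. -/
theorem isL1_max {V : Type} [Finite V] (f g : V → ℝ) :
    IsL1 (fun x y => max |f x - f y| |g x - g y|) := by
  refine (((isL1_line (fun x => f x + g x)).add (isL1_line (fun x => f x - g x))).smul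
    (a := 1 / 2) (by norm_num)).congr ?_
  intro x y
  have h1 : f x + g x - (f y + g y) = (f x - f y) + (g x - g y) := by ring
  have h2 : f x - g x - (f y - g y) = (f x - f y) - (g x - g y) := by ring
  rw [h1, h2]
  generalize f x - f y = u
  generalize g x - g y = v
  rcases abs_cases u with ⟨hu, hu'⟩ | ⟨hu, hu'⟩ <;> rcases abs_cases v with ⟨hv, hv'⟩ | ⟨hv, hv'⟩ <;>
    rcases abs_cases (u + v) with ⟨h3, h3'⟩ | ⟨h3, h3'⟩ <;>
    rcases abs_cases (u - v) with ⟨h4, h4'⟩ | ⟨h4, h4'⟩ <;>
    rcases max_cases |u| |v| with ⟨h5, h5'⟩ | ⟨h5, h5'⟩ <;> linarith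

/-- the tent at `h` -/
noncomputable def tent {V : Type} (d : V → V → ℝ) (s t h x : V) : ℝ :=
  max 0 (min (d h s) (d h t) - d h x)

theorem tent_lip {V : Type} {d : V → V → ℝ} (hd : IsMet d) (s t h x y : V) :
    |tent d s t h x - tent d s t h y| ≤ d x y := by
  have h1 := hd.tri h x y
  have h2 := hd.tri h y x
  rw [hd.symm y x] at h2
  have h0 := IsMet.nonneg' hd x y
  unfold tent
  rw [abs_le]
  constructor
  · rcases max_cases 0 (min (d h s) (d h t) - d h x) with ⟨h5, h5'⟩ | ⟨h5, h5'⟩ <;>
    rcases max_cases 0 (min (d h s) (d h t) - d h y) with ⟨h6, h6'⟩ | ⟨h6, h6'⟩ <;> linarith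
  · rcases max_cases 0 (min (d h s) (d h t) - d h x) with ⟨h5, h5'⟩ | ⟨h5, h5'⟩ <;>
    rcases max_cases 0 (min (d h s) (d h t) - d h y) with ⟨h6, h6'⟩ | ⟨h6, h6'⟩ <;> linarith

/-- The case analysis: two points near the centres are separated by `d s` or by one of the
tents. -/
theorem sep {V : Type} {d : V → V → ℝ} (hd : IsMet d) {A : Set V} {s t x y p q : V} {B : ℝ}
    (hp : p ∈ A ∨ p = s ∨ p = t) (hq : q ∈ A ∨ q = s ∨ q = t) (hB : 0 < B)
    (hpx : d p x < B) (hqy : d q y < B) (hxy : 20 * B ≤ d x y)
    (hg : |d s x - d s y| < B) (hη : ∀ h ∈ A, |tent d s t h x - tent d s t h y| < B) : False := by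
  have hpq : 18 * B < d p q := by
    have h1 := hd.tri x p y
    have h2 := hd.tri p q y
    rw [hd.symm x p] at h1
    linarith
  have hn := IsMet.nonneg' hd
  have gpq : |d s p - d s q| < 3 * B := by
    rw [abs_lt] at hg ⊢
    have h1 := hd.tri s p x
    have h2 := hd.tri s x p
    have h3 := hd.tri s q y
    have h4 := hd.tri s y q
    rw [hd.symm x p] at h2
    rw [hd.symm y q] at h4
    constructor <;> linarith
  have ηpq : ∀ h ∈ A, |tent d s t h p - tent d s t h q| < 3 * B := by
    intro h hh
    have h0 := hη h hh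
    have h1 := tent_lip hd s t h p x
    have h2 := tent_lip hd s t h q y
    rw [abs_lt] at h0 ⊢
    rw [abs_le] at h1 h2
    constructor <;> linarith
  -- the value at the centre and at the two base points
  have tc : ∀ h, tent d s t h h = min (d h s) (d h t) := by
    intro h
    unfold tent
    rw [hd.self, sub_zero, max_eq_right (le_min (hn _ _) (hn _ _))]
  have ts : ∀ h, tent d s t h s = 0 := by
    intro h
    unfold tent
    exact max_eq_left (by linarith [min_le_left (d h s) (d h t)])
  have tt : ∀ h, tent d s t h t = 0 := by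
    intro h
    unfold tent
    exact max_eq_left (by linarith [min_le_right (d h s) (d h t)])
  -- a hub far from `q` is near `s` or `t`
  have near : ∀ h ∈ A, ∀ z, |tent d s t h h - tent d s t h z| < 3 * B → 18 * B < d h z →
      d h s < 3 * B ∨ d h t < 3 * B := by
    intro h hh z h1 h2
    rw [tc] at h1
    have h3 : min (d h s) (d h t) < 3 * B := by
      by_contra hc
      push Not at hc
      have h4 : tent d s t h z ≤ min (d h s) (d h t) - 3 * B := by
        unfold tent
        exact max_le (by linarith) (by linarith)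
      rw [abs_lt] at h1
      linarith
    exact min_lt_iff.mp h3
  rw [abs_lt] at gpq
  have hst := hd.symm
  rcases hp with hp | rfl | rfl
  · rcases hq with hq | rfl | rfl
    · have n1 := near p hp q (ηpq p hp) hpq
      have n2 := near q hq p (by rw [abs_sub_comm]; exact ηpq q hq) (by rw [hd.symm]; exact hpq)
      rcases n1 with n1 | n1 <;> rcases n2 with n2 | n2
      · have := hd.tri p s q
        rw [hd.symm s q] at this
        linarith
      · have h1 := hd.tri p s q
        have h2 := hd.symm p s
        linarith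
      · have h1 := hd.tri p s q
        have h2 := hd.symm q s
        have h3 := hd.symm p s
        linarith
      · have := hd.tri p t q
        rw [hd.symm t q] at this
        linarith
    · rw [hd.self] at gpq
      rw [hd.symm p q] at hpq
      linarith
    · have n1 := near p hp q (ηpq p hp) hpq
      rcases n1 with n1 | n1
      · have h1 := hd.tri p s q
        have h3 := hd.symm p s
        linarith
      · linarith
  · rw [hd.self] at gpq
    linarith
  · rcases hq with hq | rfl | rfl
    · have n1 := near q hq p (by rw [abs_sub_comm]; exact ηpq q hq) (by rw [hd.symm]; exact hpq)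
      rcases n1 with n1 | n1
      · have h1 := hd.tri p s q
        have h2 := hd.symm p s
        have h3 := hd.symm q s
        linarith
      · rw [hd.symm] at hpq
        linarith
    · rw [hd.self] at gpq
      rw [hd.symm p q] at hpq
      linarith
    · rw [hd.self] at hpq
      linarith

theorem lossy (hN : NuStmt) : LossyStmt := by
  classical
  intro C hC V _ d ρ hd hρ h1 h2 k A hA s t
  have hn := IsMet.nonneg' hd
  have := Fintype.ofFinite V
  -- the distance to the centres
  set P : Finset V := insert s (insert t A.toFinset) with hP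
  have hPne : P.Nonempty := ⟨s, by simp [hP]⟩
  set a : V → ℝ := fun x => P.inf' hPne (fun p => d p x) with ha
  have a0 : ∀ x, 0 ≤ a x := fun x => by
    rw [ha]
    exact Finset.le_inf' _ _ fun p _ => hn p x
  have ale : ∀ p ∈ P, ∀ x, a x ≤ d p x := fun p hp x => by
    rw [ha]
    exact Finset.inf'_le _ hp
  have aex : ∀ x, ∃ p ∈ P, a x = d p x := fun x => by
    obtain ⟨p, hp, h⟩ := Finset.exists_mem_eq_inf' hPne (fun p => d p x)
    exact ⟨p, hp, h⟩
  have alip : ∀ x y, a x ≤ a y + d x y := by
    intro x y
    obtain ⟨p, hp, h⟩ := aex y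
    rw [h]
    have h3 := hd.tri p y x
    rw [hd.symm y x] at h3
    exact (ale p hp x).trans h3
  have aP : ∀ p ∈ P, a p = 0 := fun p hp => le_antisymm (by
    have := ale p hp p
    rwa [hd.self] at this) (a0 p)
  obtain ⟨κ, _, q, n, hq, hq1, hna, hnu, hnl⟩ := hN C hC V d ρ hd hρ h1 h2 a a0 alip
  set m : ℕ := A.ncard with hm
  have hmc : A.toFinset.card = m := by
    rw [hm, Set.ncard_eq_toFinset_card']
  -- the pieces
  set g : V → ℝ := fun x => d s x with hg
  set E : V → V → ℝ := fun x y => ∑ k, q k * max |g x - g y| |n k x - n k y| with hE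
  set M : V → V → ℝ := fun x y =>
    ∑ h ∈ A.toFinset, max |g x - g y| |tent d s t h x - tent d s t h y| with hM
  have glip : ∀ x y, |g x - g y| ≤ d x y := by
    intro x y
    have h3 := hd.tri s x y
    have h4 := hd.tri s y x
    rw [hd.symm y x] at h4
    rw [abs_le]
    constructor <;> simp only [hg] <;> linarith
  have hEL : IsL1 E := IsL1.sum Finset.univ (fun k x y => q k * max |g x - g y| |n k x - n k y|)
    fun k _ => (isL1_max g (n k)).smul (hq k)
  have hML : IsL1 M := IsL1.sum A.toFinset
    (fun h x y => max |g x - g y| |tent d s t h x - tent d s t h y|) fun h _ => isL1_max g _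
  have m1 : (0 : ℝ) < 1 / (m + 1) := by positivity
  have mpos : (0 : ℝ) < (m : ℝ) + 1 := by positivity
  have hF : IsL1 (fun x y => 1 / ((m : ℝ) + 1) * (E x y + M x y)) := (hEL.add hML).smul m1.le
  -- upper bound of a sum by `(m + 1) K`
  have up : ∀ x y K, E x y ≤ K →
      (∀ h ∈ A, max |g x - g y| |tent d s t h x - tent d s t h y| ≤ K) →
      1 / ((m : ℝ) + 1) * (E x y + M x y) ≤ K := by
    intro x y K hK1 hK2
    have h3 : M x y ≤ m * K := by
      simp only [hM]
      refine (Finset.sum_le_card_nsmul _ _ K fun h hh => hK2 h (by simpa using hh)).trans ?_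
      rw [hmc, nsmul_eq_mul]
    rw [one_div, inv_mul_le_iff₀ mpos]
    linarith
  have Ele : ∀ x y K, |g x - g y| ≤ K → (∀ k, |n k x - n k y| ≤ K) → E x y ≤ K := by
    intro x y K hK1 hK2
    calc E x y ≤ ∑ k, q k * K := Finset.sum_le_sum fun k _ =>
          mul_le_mul_of_nonneg_left (max_le hK1 (hK2 k)) (hq k)
      _ = K := by rw [← Finset.sum_mul, hq1, one_mul]
  have Ege : ∀ x y, |g x - g y| ≤ E x y := by
    intro x y
    calc |g x - g y| = ∑ k, q k * |g x - g y| := by rw [← Finset.sum_mul, hq1, one_mul]
      _ ≤ E x y := Finset.sum_le_sum fun k _ =>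
          mul_le_mul_of_nonneg_left (le_max_left _ _) (hq k)
  have Ege' : ∀ x y, ∑ k, q k * |n k x - n k y| ≤ E x y := fun x y =>
    Finset.sum_le_sum fun k _ => mul_le_mul_of_nonneg_left (le_max_right _ _) (hq k)
  have M0 : ∀ x y, 0 ≤ M x y := fun x y => hML.nonneg x y
  have E0 : ∀ x y, 0 ≤ E x y := fun x y => hEL.nonneg x y
  have Mge : ∀ h ∈ A, ∀ x y, |tent d s t h x - tent d s t h y| ≤ M x y := by
    intro h hh x y
    refine (le_max_right |g x - g y| _).trans ?_
    exact Finset.single_le_sum
      (f := fun h => max |g x - g y| |tent d s t h x - tent d s t h y|)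
      (fun h _ => (abs_nonneg _).trans (le_max_left _ _)) (by simpa using hh)
  -- the main lower bound
  have low : ∀ x y, d x y ≤ 640 * (E x y + M x y) := by
    intro x y
    by_contra hc
    push Not at hc
    have hpos : 0 < d x y := lt_of_le_of_lt (by have := E0 x y; have := M0 x y; positivity) hc
    have e1 := Ege x y
    have e2 := Ege' x y
    have e3 := M0 x y
    have e4 := E0 x y
    have l1 := hnl x y
    have l2 := hnl y x
    rw [hd.symm y x] at l2
    have l2' : ∑ k, q k * |n k y - n k x| = ∑ k, q k * |n k x - n k y| :=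
      Finset.sum_congr rfl fun k _ => by rw [abs_sub_comm]
    rw [l2'] at l2
    have b1 : a x < d x y / 20 := by
      by_contra hx
      push Not at hx
      have : d x y / 20 ≤ min (d x y) (a x) := le_min (by linarith) hx
      linarith
    have b2 : a y < d x y / 20 := by
      by_contra hx
      push Not at hx
      have : d x y / 20 ≤ min (d x y) (a y) := le_min (by linarith) hx
      linarith
    obtain ⟨p, hp, hpx⟩ := aex x
    obtain ⟨r, hr, hry⟩ := aex y
    have hp' : p ∈ A ∨ p = s ∨ p = t := by
      simp only [hP, Finset.mem_insert, Set.mem_toFinset] at hp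
      tauto
    have hr' : r ∈ A ∨ r = s ∨ r = t := by
      simp only [hP, Finset.mem_insert, Set.mem_toFinset] at hr
      tauto
    exact sep hd (B := d x y / 20) hp' hr' (by linarith) (by linarith) (by linarith)
      (by linarith) (lt_of_le_of_lt e1 (by linarith))
      fun h hh => lt_of_le_of_lt (Mge h hh x y) (by linarith)
  have hsP : s ∈ P := by simp [hP]
  have htP : t ∈ P := by simp [hP]
  refine ⟨fun x y => 1 / ((m : ℝ) + 1) * (E x y + M x y), hF, ?_, ?_, ?_, ?_⟩
  · -- exact at the root
    have g1 : |g s - g t| = d s t := by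
      simp only [hg]
      rw [hd.self, zero_sub, abs_neg, abs_of_nonneg (hn s t)]
    refine le_antisymm (up s t _ (Ele s t _ g1.le fun k => ?_) fun h _ => ?_) ?_
    · have k1 := hna k s
      have k2 := hna k t
      rw [aP s hsP] at k1
      rw [aP t htP] at k2
      have k1' : n k s = 0 := abs_nonpos_iff.mp k1
      have k2' : n k t = 0 := abs_nonpos_iff.mp k2
      rw [k1', k2', sub_zero, abs_zero]
      exact hn s t
    · exact max_le g1.le (tent_lip hd s t h s t)
    · have e1 : d s t ≤ E s t := g1 ▸ Ege s t
      have e2 : (m : ℝ) * d s t ≤ M s t := by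
        have := Finset.card_nsmul_le_sum A.toFinset
          (fun h => max |g s - g t| |tent d s t h s - tent d s t h t|) (d s t)
          (fun h _ => g1 ▸ le_max_left _ _)
        rwa [hmc, nsmul_eq_mul] at this
      change d s t ≤ 1 / ((m : ℝ) + 1) * (E s t + M s t)
      rw [one_div, ← div_eq_inv_mul, le_div_iff₀ mpos]
      linarith
  · intro h0 hh0 x
    have hhP : h0 ∈ P := by simp [hP, hh0]
    refine up h0 x _ (Ele h0 x _ (glip h0 x) fun k => ?_) fun h _ =>
      max_le (glip h0 x) (tent_lip hd s t h h0 x)
    have k1 := hna k h0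
    rw [aP h0 hhP] at k1
    have k1' : n k h0 = 0 := abs_nonpos_iff.mp k1
    rw [k1', zero_sub, abs_neg]
    exact (hna k x).trans (ale h0 hhP x)
  · intro x y
    have hdxy := hn x y
    have hCd : 0 ≤ C * d x y := mul_nonneg (by linarith) hdxy
    refine up x y _ ?_ fun h _ => max_le ((glip x y).trans ?_)
      ((tent_lip hd s t h x y).trans ?_)
    · calc E x y ≤ ∑ k, (q k * |g x - g y| + q k * |n k x - n k y|) :=
            Finset.sum_le_sum fun k _ => by
              rw [← mul_add]
              exact mul_le_mul_of_nonneg_left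
                (max_le (by linarith [abs_nonneg (n k x - n k y)])
                  (by linarith [abs_nonneg (g x - g y)])) (hq k)
        _ = |g x - g y| + ∑ k, q k * |n k x - n k y| := by
            rw [Finset.sum_add_distrib, ← Finset.sum_mul, hq1, one_mul]
        _ ≤ d x y + 2 * (C + 1) * d x y := add_le_add (glip x y) (hnu x y)
        _ = (2 * C + 3) * d x y := by ring
    · nlinarith
    · nlinarith
  · intro x y
    have hl := low x y
    have hk : (m : ℝ) + 1 ≤ k + 1 := by
      have : (m : ℝ) ≤ k := by exact_mod_cast hA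
      linarith
    have hF0 : 0 ≤ 1 / ((m : ℝ) + 1) * (E x y + M x y) := hF.nonneg x y
    have hS : E x y + M x y = ((m : ℝ) + 1) * (1 / ((m : ℝ) + 1) * (E x y + M x y)) := by
      field_simp
    calc d x y ≤ 640 * (E x y + M x y) := hl
      _ = 640 * (((m : ℝ) + 1) * (1 / ((m : ℝ) + 1) * (E x y + M x y))) := by rw [← hS]
      _ ≤ 640 * (((k : ℝ) + 1) * (1 / ((m : ℝ) + 1) * (E x y + M x y))) := by
          have := mul_le_mul_of_nonneg_right hk hF0
          linarith
      _ = _ := by ring

end Vale.Agent.P235.Hub.H309
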